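import Vale.Agent.P164.X.Defs8
import Vale.Agent.P153.R2.Final.Defs

/-!
# P167: the interface of critical bond percolation on the square lattice (`q = 1`): definitions

The random-cluster measure with `q = 1`, `p = 1/2` on the edges of a finite graph is the uniform
measure on the sets of edges; wired boundary vertices enter the definition of the interface only.
-/

namespace Vale.Agent.P167.E6

open MeasureTheory ProbabilityTheory Filter Topology Set
open Vale.Agent.P153.R2.Final (dom circ toC IsUniformizer)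
open Vale.Agent.P164 (IsSLE)

/-! ### The lattice -/

/-- The point of the plane. -/
def pt (v : ℤ × ℤ) : ℂ := ⟨v.1, v.2⟩

/-- The four directions: east, north, west, south. -/
def dir : Fin 4 → ℤ × ℤ := ![(1, 0), (0, 1), (-1, 0), (0, -1)]

/-- The faces of the lattice are denoted by their lower left corner: the face `f` is the unit square
`[f.1, f.1 + 1] × [f.2, f.2 + 1]`. The face `face v r` is the one of the four faces around the vertex
`v` which is between the directions `dir r` and `dir (r + 1)` (counterclockwise). -/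
def face (v : ℤ × ℤ) (r : Fin 4) : ℤ × ℤ := v + ![(0, 0), (-1, 0), (-1, -1), (0, -1)] r

/-- A simple closed nearest-neighbour polygon `p 0, p 1, …, p (n - 1), p 0`. -/
def IsPolygon {n : ℕ} (p : ZMod n → ℤ × ℤ) : Prop :=
  2 < n ∧ Function.Injective p ∧ ∀ i, ∃ r, p (i + 1) = p i + dir r

/-- `p` is counterclockwise and the finite set `S` of faces is the set of the faces enclosed by
`p`: the directed edges of `p` are exactly the directed edges `v → v + dir r` of the lattice whose
left face `face v r` is in `S` and whose right face `face v (r - 1)` is not. -/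
def Encloses {n : ℕ} (p : ZMod n → ℤ × ℤ) (S : Finset (ℤ × ℤ)) : Prop :=
  ∀ (v : ℤ × ℤ) (r : Fin 4),
    (∃ i, p i = v ∧ p (i + 1) = v + dir r) ↔ face v r ∈ S ∧ face v (r - 1) ∉ S

/-- The closed domain of mesh `δ`: the union of the enclosed faces of `δ ℤ²`. -/
def region (δ : ℝ) (S : Finset (ℤ × ℤ)) : Set ℂ :=
  {z | ∃ f ∈ S, δ * f.1 ≤ z.re ∧ z.re ≤ δ * (f.1 + 1) ∧ δ * f.2 ≤ z.im ∧ z.im ≤ δ * (f.2 + 1)}

/-- The edges of the graph `G`: all lattice edges in the closed domain, that is the sides of the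
enclosed faces. -/
def edges (S : Finset (ℤ × ℤ)) : Finset (Sym2 (ℤ × ℤ)) :=
  S.biUnion fun f => {s(f, f + (1, 0)), s(f, f + (0, 1)), s(f + (1, 0), f + (1, 1)),
    s(f + (0, 1), f + (1, 1))}

/-- Expectation for the random-cluster measure with `q = 1`, `p = 1/2` on `G`: every set `A` of open
edges has the probability `2 ^ (-|E|)`. -/
noncomputable def mean (S : Finset (ℤ × ℤ)) (F : Finset (Sym2 (ℤ × ℤ)) → ℝ) : ℝ :=
  (∑ A ∈ (edges S).powerset, F A) / 2 ^ (edges S).card

/-! ### The interface -/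

/-- The wired vertices are `p k, …, p (n - 1)` (the arc from `b` to `a`), the free vertices of the
boundary are `p 0, …, p (k - 1)`. The interface treats the edges of the polygon between two wired
vertices as open. -/
def wiredOpen {n : ℕ} (p : ZMod n → ℤ × ℤ) (k : ℕ) (A : Finset (Sym2 (ℤ × ℤ))) :
    Set (Sym2 (ℤ × ℤ)) :=
  {e | e ∈ A ∨ ∃ i : ℕ, k ≤ i ∧ i + 1 < n ∧ e = s(p i, p (i + 1))}

/-- The edges of the medial lattice: `(v, r)` is the medial edge between the vertex `v` and the
face `face v r`, directed in such a way that `v` is on its left. It ends at the midpoint of the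
edge from `v` to `v + dir (r + 1)`. -/
abbrev Medial := (ℤ × ℤ) × Fin 4

/-- The edge of the lattice at whose midpoint the medial edge ends. -/
def ahead (c : Medial) : Sym2 (ℤ × ℤ) := s(c.1, c.1 + dir (c.2 + 1))

/-- The midpoint of this edge, in the lattice of mesh `δ`. -/
noncomputable def mid (δ : ℝ) (c : Medial) : ℂ :=
  (δ : ℂ) * (pt c.1 + pt (c.1 + dir (c.2 + 1))) / 2

open Classical in
/-- The next medial edge of the path: at an open edge (`ω` is the set of the open edges) the path
keeps the face on its right and passes to the other end of the edge on its left; at a closed edge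
it keeps the vertex on its left and passes to the other face. -/
noncomputable def next (ω : Set (Sym2 (ℤ × ℤ))) (c : Medial) : Medial :=
  if ahead c ∈ ω then (c.1 + dir (c.2 + 1), c.2 - 1) else (c.1, c.2 + 1)

/-- The polygonal curve through `x 0, x 1, …, x m`, parametrised by `[0,1]`. -/
noncomputable def poly (x : ℕ → ℂ) (m : ℕ) (t : ℝ) : ℂ :=
  x ⌊t * m⌋₊ + (t * m - ⌊t * m⌋₊ : ℝ) * (x (⌊t * m⌋₊ + 1) - x ⌊t * m⌋₊)

/-- `γ` is the interface in the domain of mesh `δ` enclosed by the counterclockwise polygon `p`,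
with `p 0, …, p (k - 1)` free and `p k, …, p (n - 1)` wired, for the set `A` of open edges of `G`:
the path in the medial lattice from the midpoint of the edge `p (n - 1) p 0` to the midpoint of the
edge `p (k - 1) p k` which starts with the wired vertex `p (n - 1)` on its left and an exterior face
on its right (coming from outside) and ends when it leaves the domain with the wired vertex `p k` on
its left. -/
def IsInterface {n : ℕ} (p : ZMod n → ℤ × ℤ) (k : ℕ) (δ : ℝ) (A : Finset (Sym2 (ℤ × ℤ)))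
    (γ : C(unitInterval, ℂ)) : Prop :=
  ∃ (m : ℕ) (c : ℕ → Medial), 0 < m ∧
    (c 0).1 = p (-1) ∧ p (-1) + dir ((c 0).2 + 1) = p 0 ∧
    (∀ j, c (j + 1) = next (wiredOpen p k A) (c j)) ∧
    (∀ j, 1 ≤ j → ((c j).1 = p k ∧ p k + dir (c j).2 = p ((k : ZMod n) - 1)) → m + 1 ≤ j) ∧
    (c (m + 1)).1 = p k ∧ p k + dir (c (m + 1)).2 = p ((k : ZMod n) - 1) ∧
    ∀ t : unitInterval, γ t = poly (fun j => mid δ (c j)) m t

/-! ### Approximation of a marked Jordan domain -/

/-- The marked Jordan domain `(D; a, b)` is `dom Φ`, the image of the open unit disc under the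
homeomorphism `Φ` of the plane (by the theorem of Schoenflies these are exactly the interiors of
Jordan curves), with `a = Φ (1, 0)` and `b = Φ (-1, 0)`. The counterclockwise polygons `p n` on
`δ n ℤ²`, with the free vertices `p 0, …, p (k - 1)` and the wired vertices `p k, …, p (N - 1)`,
approximate `(D; a, b)`: the meshes tend to `0` and the marked boundary curves converge uniformly
(with a common parametrisation; the marks of the polygon are on its edges `p (N - 1) p 0` and
`p (k - 1) p k`). -/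
def Approx (Φ : (ℝ × ℝ) ≃ₜ (ℝ × ℝ)) (δ : ℕ → ℝ) (N k : ℕ → ℕ)
    (p : ∀ n, ZMod (N n) → ℤ × ℤ) (S : ℕ → Finset (ℤ × ℤ)) : Prop :=
  (∀ n, 0 < δ n ∧ 0 < k n ∧ k n < N n ∧ IsPolygon (p n) ∧ Encloses (p n) (S n)) ∧
  Tendsto δ atTop (𝓝 0) ∧
  ∀ ε > 0, ∀ᶠ n in atTop, ∃ s : ℕ → ℝ, Monotone s ∧ s 0 = 0 ∧ s (k n) = Real.pi ∧
    s (N n) = 2 * Real.pi ∧ ∀ i < N n, ∀ t ∈ Icc (s i) (s (i + 1)),
      dist ((δ n : ℂ) * pt (p n i)) (toC (Φ (circ t))) < ε

/-- Consequence of `Approx` (winding numbers): every compact subset of `D` is eventually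
enclosed. -/
def Exhausts (Φ : (ℝ × ℝ) ≃ₜ (ℝ × ℝ)) (δ : ℕ → ℝ) (S : ℕ → Finset (ℤ × ℤ)) : Prop :=
  ∀ K ⊆ toC '' dom Φ, IsCompact K → ∀ᶠ n in atTop, K ⊆ region (δ n) (S n)

/-! ### The theorem -/

/-- Convergence of the interfaces to `SLE_6`: there is a chordal `SLE_6` trace `γ` in the upper
half-plane, from `0` to `∞`, such that for every marked Jordan domain `(D; a, b)`, every conformal
map `ψ` from the upper half-plane onto `(D; a, b)` and every approximation of `(D; a, b)` the
interfaces converge in law to the chordal `SLE_6` curve `ψ ∘ γ` of `(D; a, b)`, in the uniform metric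
modulo increasing reparametrization: the expectations of all bounded continuous functions `F` of
the curve which are invariant under increasing reparametrization converge. -/
def CurveLimit : Prop :=
  ∃ (Ω : Type) (_ : MeasurableSpace Ω) (P : Measure Ω) (_ : IsProbabilityMeasure P)
    (γ : Ω → ℝ → ℂ), IsSLE 6 P γ ∧
    ∀ Φ : (ℝ × ℝ) ≃ₜ (ℝ × ℝ), (∃ ψ, IsUniformizer Φ ψ) ∧ ∀ ψ, IsUniformizer Φ ψ →
      ∃ G : Ω → C(unitInterval, ℂ),
        (∀ᵐ ω ∂P, G ω 1 = toC (Φ (circ Real.pi)) ∧
          ∀ t : unitInterval, (t : ℝ) < 1 → G ω t = ψ (γ ω (t / (1 - t)))) ∧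
        (∀ F : C(unitInterval, ℂ) → ℝ, Continuous F → AEMeasurable (fun ω => F (G ω)) P) ∧
        ∀ (δ : ℕ → ℝ) (N k : ℕ → ℕ) (p : ∀ n, ZMod (N n) → ℤ × ℤ)
          (S : ℕ → Finset (ℤ × ℤ)), Approx Φ δ N k p S →
          (∀ n, ∀ A ⊆ edges (S n), ∃ c, IsInterface (p n) (k n) (δ n) A c) ∧
          ∀ c : ∀ n, Finset (Sym2 (ℤ × ℤ)) → C(unitInterval, ℂ),
            (∀ n, ∀ A ⊆ edges (S n), IsInterface (p n) (k n) (δ n) A (c n A)) →
            ∀ F : C(unitInterval, ℂ) → ℝ, Continuous F → (∃ M, ∀ x, |F x| ≤ M) →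
              (∀ (x : C(unitInterval, ℂ)) (σ : C(unitInterval, unitInterval)), StrictMono σ →
                Function.Surjective σ → F (x.comp σ) = F x) →
              Tendsto (fun n => mean (S n) fun A => F (c n A)) atTop (𝓝 (∫ ω, F (G ω) ∂P))

/-! ### Cardy's formula -/

/-- The function of Cardy's formula on `[0,1]`: the primitive of `(s (1 - s)) ^ (-2/3)` normalised
to `F 1 = 1`. -/
noncomputable def cardyF (u : ℝ) : ℝ :=
  (∫ s in (0 : ℝ)..u, (s * (1 - s)) ^ (-(2 / 3) : ℝ)) /
    ∫ s in (0 : ℝ)..1, (s * (1 - s)) ^ (-(2 / 3) : ℝ)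

/-- The vertex of index `i` of the `m`-fold enlargement of the polygon `p`. -/
def Enlarged {n n' : ℕ} (p : ZMod n → ℤ × ℤ) (m : ℕ) (p' : ZMod n' → ℤ × ℤ) : Prop :=
  n' = m * n ∧ ∀ i : ℕ, ∀ j ≤ m, p' ((m * i + j : ℕ) : ZMod n') =
    ((m : ℤ) * (p i).1 + j * ((p ((i : ZMod n) + 1)).1 - (p i).1),
      (m : ℤ) * (p i).2 + j * ((p ((i : ZMod n) + 1)).2 - (p i).2))

/-- There is an open path in `A` between the vertices of indices in `[i, j]` and the vertices of
indices in `[i', j']` of `p`. -/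
def Crossed {n : ℕ} (p : ZMod n → ℤ × ℤ) (A : Finset (Sym2 (ℤ × ℤ))) (i j i' j' : ℕ) : Prop :=
  ∃ a b : ℕ, i ≤ a ∧ a ≤ j ∧ i' ≤ b ∧ b ≤ j' ∧
    (SimpleGraph.fromEdgeSet (A : Set (Sym2 (ℤ × ℤ)))).Reachable (p a) (p b)

open Classical in
/-- Cardy's formula for lattice polygons with four marked vertices `p 0`, `p a`, `p b`, `p c`
(`0 < a < b < c < n`): for the critical percolation of mesh `1/m` in the closed polygon the
probability of an open crossing between the arcs `[0, a]` and `[b, c]` tends to Cardy's function of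
the cross ratio. The conformal map `ψ` from the upper half-plane takes `x 0 < x 1 < x 2` and `∞` to
the marked points. -/
def Cardy : Prop :=
  ∀ (n : ℕ) (p : ZMod n → ℤ × ℤ) (S : Finset (ℤ × ℤ)), IsPolygon p → Encloses p S →
    ∀ a b c : ℕ, 0 < a → a < b → b < c → c < n →
    ∀ (ψ : ℂ → ℂ) (x₀ x₁ x₂ : ℝ), DifferentiableOn ℂ ψ {z | 0 < z.im} →
      InjOn ψ {z | 0 < z.im} → ψ '' {z | 0 < z.im} = interior (region 1 S) →
      ContinuousOn ψ {z | 0 ≤ z.im} → x₀ < x₁ → x₁ < x₂ →
      ψ x₀ = pt (p 0) → ψ x₁ = pt (p a) → ψ x₂ = pt (p b) →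
      Tendsto ψ (Bornology.cobounded ℂ ⊓ 𝓟 {z | 0 ≤ z.im}) (𝓝 (pt (p c))) →
      ∀ (N : ℕ → ℕ) (P : ∀ m, ZMod (N m) → ℤ × ℤ) (T : ℕ → Finset (ℤ × ℤ)),
        (∀ m, 0 < m → Enlarged p m (P m) ∧ Encloses (P m) (T m)) →
        Tendsto (fun m => mean (T m) fun A =>
            if Crossed (P m) A 0 (m * a) (m * b) (m * c) then 1 else 0) atTop
          (𝓝 (cardyF ((x₁ - x₀) / (x₂ - x₀))))

end Vale.Agent.P167.E6
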