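import Vale.Agent.P167.E6.Defs
import Vale.Agent.P153.R2.POLY.Dom
import Vale.Agent.P153.R2.R1.PolyC
import Vale.Agent.P153.R2.R1.HalfP

/-!
# P167 / E6, block GEO-A: square lattice polygons are Jordan domains

A polygon of the square lattice is a polygon of the triangular lattice (in the lattice coordinates
of the latter), so the facts of `P153/R2/POLY/Dom` apply.
-/

set_option linter.all false

namespace Vale.Agent.P167.E6

open Set Filter Topology Metric Bornology
open Vale.Agent.P153.R2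
open Vale.Agent.P153.R2.R1 (JCurve Good pl pl_eq pl_mem_segment exists_pl_of_segment pl_add
  continuous_pl dirs edge_meet NoCut LC)
open Vale.Agent.P153.R2.Final (Tri)
open Vale.Agent.P153.R2.POLY (RR DD rp ct EE)

/-- The triangles of the faces in `S`. -/
def tri (S : Finset (ℤ × ℤ)) : Finset Tri := S ×ˢ Finset.univ

theorem mem_tri {S : Finset (ℤ × ℤ)} {v : ℤ × ℤ} {b : Bool} : (v, b) ∈ tri S ↔ v ∈ S := by
  simp [tri]

variable {n : ℕ} {p : ZMod n → ℤ × ℤ} {S : Finset (ℤ × ℤ)} {δ : ℝ}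

theorem len_dir (r : Fin 4) : Final.len (dir r) = 1 := by
  rw [Final.len, Real.sqrt_eq_one]
  fin_cases r <;> norm_num [dir]

theorem IsPolygon.tri (hp : IsPolygon p) : Final.IsPolygon p := by
  refine ⟨hp.1, hp.2.1, fun i => ?_⟩
  obtain ⟨r, hr⟩ := hp.2.2 i
  show Final.len (p (i + 1) - p i) = 1
  rw [hr, add_sub_cancel_left, len_dir]

theorem isEdge_iff {v w : ℤ × ℤ} : Final.IsEdge p v w ↔
    (∃ i, p i = v ∧ p (i + 1) = w) ∨ ∃ i, p i = w ∧ p (i + 1) = v := by
  constructor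
  · rintro ⟨i, h | h⟩
    · exact Or.inl ⟨i, h⟩
    · exact Or.inr ⟨i, h⟩
  · rintro (⟨i, h⟩ | ⟨i, h⟩)
    · exact ⟨i, Or.inl h⟩
    · exact ⟨i, Or.inr h⟩

theorem xor_form (A B : Prop) : (A ∧ ¬ B ∨ B ∧ ¬ A) ↔ ¬ (A ↔ B) := by
  by_cases hA : A <;> by_cases hB : B <;> simp [hA, hB]

theorem Encloses.tri (hp : IsPolygon p) (hS : Encloses p S) : Final.Encloses p (tri S) := by
  intro v
  have h0 := hS v 0
  have h1 := hS v 1
  have h2 := hS (v + (1, 0)) 2
  have h3 := hS (v + (0, 1)) 3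
  have e0 : face v 0 = v := by ext <;> simp [face]
  have e0' : face v (0 - 1) = v - (0, 1) := by ext <;> simp [face] <;> ring
  have e1 : face v 1 = v - (1, 0) := by ext <;> simp [face] <;> ring
  have e1' : face v (1 - 1) = v := by ext <;> simp [face]
  have e2 : face (v + (1, 0)) 2 = v - (0, 1) := by ext <;> simp [face] <;> ring
  have e2' : face (v + (1, 0)) (2 - 1) = v := by ext <;> simp [face] <;> ring
  have e3 : face (v + (0, 1)) 3 = v := by ext <;> simp [face] <;> ring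
  have e3' : face (v + (0, 1)) (3 - 1) = v - (1, 0) := by ext <;> simp [face] <;> ring
  have d0 : v + dir 0 = v + (1, 0) := rfl
  have d1 : v + dir 1 = v + (0, 1) := rfl
  have d2 : v + (1, 0) + dir 2 = v := by ext <;> simp [dir]
  have d3 : v + (0, 1) + dir 3 = v := by ext <;> simp [dir]
  rw [e0, e0', d0] at h0
  rw [e1, e1', d1] at h1
  rw [e2, e2', d2] at h2
  rw [e3, e3', d3] at h3
  refine ⟨?_, ?_, ?_⟩
  · rw [Final.Side, isEdge_iff, h0, h2, mem_tri, mem_tri]
    exact xor_form _ _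
  · rw [Final.Side, isEdge_iff, h1, h3, mem_tri, mem_tri, or_comm]
    exact xor_form _ _
  · rw [Final.Side, mem_tri, mem_tri]
    constructor
    · rintro ⟨i, h | h⟩
      · obtain ⟨r, hr⟩ := hp.2.2 i
        rw [h.1, h.2] at hr
        have h4 := congrArg Prod.fst hr
        have h5 := congrArg Prod.snd hr
        exfalso
        fin_cases r <;> simp [dir] at h4 h5 <;> omega
      · obtain ⟨r, hr⟩ := hp.2.2 i
        rw [h.1, h.2] at hr
        have h4 := congrArg Prod.fst hr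
        have h5 := congrArg Prod.snd hr
        exfalso
        fin_cases r <;> simp [dir] at h4 h5 <;> omega
    · intro h
      exact absurd Iff.rfl h

/-! ### The domain -/

/-- The lattice coordinates. -/
noncomputable def N6 (hδ : 0 < δ) : ℂ ≃ₜ ℝ × ℝ where
  toFun z := (z.re / δ, z.im / δ)
  invFun w := ⟨δ * w.1, δ * w.2⟩
  left_inv z := by
    apply Complex.ext <;> simp <;> field_simp
  right_inv w := by
    ext <;> simp <;> field_simp
  continuous_toFun := by fun_prop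
  continuous_invFun := by
    have : (fun w : ℝ × ℝ => (⟨δ * w.1, δ * w.2⟩ : ℂ)) =
        fun w => ((δ * w.1 : ℝ) : ℂ) + ((δ * w.2 : ℝ) : ℂ) * Complex.I := by
      funext w
      apply Complex.ext <;> simp
    rw [this]
    fun_prop

@[simp] theorem N6_apply (hδ : 0 < δ) (z : ℂ) : N6 hδ z = (z.re / δ, z.im / δ) := rfl

@[simp] theorem N6_symm_apply (hδ : 0 < δ) (w : ℝ × ℝ) :
    (N6 hδ).symm w = ⟨δ * w.1, δ * w.2⟩ := rfl

theorem mem_RR_tri {x y : ℝ} : (x, y) ∈ RR (tri S : Set Tri) ↔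
    ∃ f ∈ S, (f.1 : ℝ) ≤ x ∧ x ≤ f.1 + 1 ∧ (f.2 : ℝ) ≤ y ∧ y ≤ f.2 + 1 := by
  constructor
  · rintro ⟨⟨f, b⟩, hf, h1, h2, h3⟩
    refine ⟨f, mem_tri.1 hf, ?_⟩
    cases b <;> simp [POLY.la, POLY.lb] at h1 h2 h3 <;> refine ⟨?_, ?_, ?_, ?_⟩ <;> linarith
  · rintro ⟨f, hf, h1, h2, h3, h4⟩
    by_cases h : x - f.1 + (y - f.2) ≤ 1
    · refine ⟨(f, false), mem_tri.2 hf, ?_, ?_, ?_⟩ <;> simp [POLY.la, POLY.lb] <;> linarith
    · refine ⟨(f, true), mem_tri.2 hf, ?_, ?_, ?_⟩ <;> simp [POLY.la, POLY.lb] <;> linarith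

theorem region_eq6 (hδ : 0 < δ) (S : Finset (ℤ × ℤ)) :
    region δ S = N6 hδ ⁻¹' RR (tri S : Set Tri) := by
  ext z
  rw [mem_preimage, N6_apply, mem_RR_tri]
  constructor
  · rintro ⟨f, hf, h1, h2, h3, h4⟩
    refine ⟨f, hf, ?_, ?_, ?_, ?_⟩
    · rwa [le_div_iff₀ hδ, mul_comm]
    · rwa [div_le_iff₀ hδ, mul_comm]
    · rwa [le_div_iff₀ hδ, mul_comm]
    · rwa [div_le_iff₀ hδ, mul_comm]
  · rintro ⟨f, hf, h1, h2, h3, h4⟩
    refine ⟨f, hf, ?_, ?_, ?_, ?_⟩
    · rwa [le_div_iff₀ hδ, mul_comm] at h1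
    · rwa [div_le_iff₀ hδ, mul_comm] at h2
    · rwa [le_div_iff₀ hδ, mul_comm] at h3
    · rwa [div_le_iff₀ hδ, mul_comm] at h4

/-- The open domain enclosed by the polygon. -/
def D6 (δ : ℝ) (S : Finset (ℤ × ℤ)) : Set ℂ := interior (region δ S)

theorem D6_eq (hδ : 0 < δ) (S : Finset (ℤ × ℤ)) : D6 δ S = N6 hδ ⁻¹' DD (tri S : Set Tri) := by
  rw [D6, region_eq6 hδ, ← (N6 hδ).preimage_interior, POLY.interior_RR]

theorem isOpen_D6 (δ : ℝ) (S : Finset (ℤ × ℤ)) : IsOpen (D6 δ S) := isOpen_interior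

theorem isConnected_D6 (hδ : 0 < δ) (hp : IsPolygon p) (hS : Encloses p S) :
    IsConnected (D6 δ S) := by
  rw [D6_eq hδ, (N6 hδ).isConnected_preimage]
  exact POLY.isConnected_DD hp.tri (Encloses.tri hp hS)

theorem isCompact_region6 (hδ : 0 < δ) (S : Finset (ℤ × ℤ)) : IsCompact (region δ S) := by
  rw [region_eq6 hδ, (N6 hδ).isCompact_preimage]
  exact POLY.isCompact_RR _

theorem isBounded_D6 (hδ : 0 < δ) (S : Finset (ℤ × ℤ)) : IsBounded (D6 δ S) :=
  (isCompact_region6 hδ S).isBounded.subset interior_subset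

theorem compl_D6 (hδ : 0 < δ) (S : Finset (ℤ × ℤ)) :
    (D6 δ S)ᶜ = N6 hδ ⁻¹' RR (tri S : Set Tri)ᶜ := by
  rw [D6_eq hδ, POLY.DD_eq, preimage_compl, compl_compl]

theorem isPreconnected_compl_D6 (hδ : 0 < δ) (hp : IsPolygon p) (hS : Encloses p S) :
    IsPreconnected (D6 δ S)ᶜ := by
  rw [compl_D6 hδ, (N6 hδ).isPreconnected_preimage]
  exact POLY.isPreconnected_RR hp.tri (Encloses.tri hp hS)

theorem not_isBounded_compl_D6 (hδ : 0 < δ) (S : Finset (ℤ × ℤ)) : ¬ IsBounded (D6 δ S)ᶜ := by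
  intro h
  have h2 := (isBounded_D6 hδ S).union h
  rw [union_compl_self] at h2
  exact NormedSpace.unbounded_univ ℝ ℂ h2

theorem noBdd_D6 (hδ : 0 < δ) (hp : IsPolygon p) (hS : Encloses p S) :
    P153.TOP.NoBdd (D6 δ S) := fun z hz =>
  ⟨(D6 δ S)ᶜ, isPreconnected_compl_D6 hδ hp hS, hz, Subset.rfl, not_isBounded_compl_D6 hδ S⟩

theorem rdom_D6 (hδ : 0 < δ) (hp : IsPolygon p) (hS : Encloses p S) :
    P153.TOP.RMT.RDom (D6 δ S) :=
  ⟨isConnected_D6 hδ hp hS, P153.TOP.hasLogOn_of_noBdd (isOpen_D6 δ S)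
    (isConnected_D6 hδ hp hS).isPreconnected (noBdd_D6 hδ hp hS)⟩

theorem ne_univ_D6 (hδ : 0 < δ) (S : Finset (ℤ × ℤ)) : D6 δ S ≠ univ := by
  intro h
  have := isBounded_D6 hδ S
  rw [h] at this
  exact NormedSpace.unbounded_univ ℝ ℂ this

theorem closure_D6 (hδ : 0 < δ) (S : Finset (ℤ × ℤ)) : closure (D6 δ S) = region δ S := by
  rw [D6_eq hδ, ← (N6 hδ).preimage_closure, POLY.closure_DD, region_eq6 hδ]

/-! ### The boundary curve -/

/-- The vertices of the polygon, indexed by the integers. -/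
noncomputable def PV6 (p : ZMod n → ℤ × ℤ) (δ : ℝ) (i : ℤ) : ℂ := (δ : ℂ) * pt (p i)

/-- The closed curve of the polygon. -/
noncomputable def PF6 (p : ZMod n → ℤ × ℤ) (δ : ℝ) : ℝ → ℂ := pl (PV6 p δ)

theorem PV6_per (i : ℤ) : PV6 p δ (i + n) = PV6 p δ i := by
  simp [PV6]

theorem PF6_per (x : ℝ) : PF6 p δ (x + n) = PF6 p δ x := by
  have := pl_add (PV6 p δ) (PV6 p δ) n 0 (fun i => by rw [PV6_per, add_zero]) x
  rw [add_zero] at this
  exact_mod_cast this

theorem continuous_PF6 : Continuous (PF6 p δ) := continuous_pl _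

theorem re_comb (a b : ℝ) (z w : ℂ) : (a • z + b • w).re = a * z.re + b * w.re := by simp

theorem im_comb (a b : ℝ) (z w : ℂ) : (a • z + b • w).im = a * z.im + b * w.im := by simp

@[simp] theorem pt_re (v : ℤ × ℤ) : (pt v).re = v.1 := rfl

@[simp] theorem pt_im (v : ℤ × ℤ) : (pt v).im = v.2 := rfl

theorem PV6_re (i : ℤ) : (PV6 p δ i).re = δ * (p i).1 := by simp [PV6]

theorem PV6_im (i : ℤ) : (PV6 p δ i).im = δ * (p i).2 := by simp [PV6]

/-- The curve of a polygon has no double points. -/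
theorem jcurve_PF6 (hδ : 0 < δ) (hp : IsPolygon p) : JCurve (PF6 p δ) n where
  pos := by
    have : 0 < n := by have := hp.1; omega
    exact_mod_cast this
  cont := continuous_PF6
  per := PF6_per
  inj x y h := by
    have hn := hp.1
    set i := ⌊x⌋ with hi
    set j := ⌊y⌋ with hj
    have hx : x = i + Int.fract x := (Int.floor_add_fract x).symm
    have hy : y = j + Int.fract y := (Int.floor_add_fract y).symm
    have e1 := congrArg Complex.re h
    have e2 := congrArg Complex.im h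
    simp only [PF6, pl, ← hi, ← hj, re_comb, im_comb, PV6_re, PV6_im] at e1 e2
    have hd1 : p ((i : ZMod n) + 1) - p i ∈ dirs := R1.adj_dirs (hp.tri.2.2 i)
    have hd2 : p ((j : ZMod n) + 1) - p j ∈ dirs := R1.adj_dirs (hp.tri.2.2 j)
    push_cast at e1 e2
    have e1' : (1 - Int.fract x) * ((p i).1 : ℝ) + Int.fract x * ((p (i + 1)).1 : ℝ) =
        (1 - Int.fract y) * ((p j).1 : ℝ) + Int.fract y * ((p (j + 1)).1 : ℝ) := by
      apply mul_left_cancel₀ hδ.ne'
      linarith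
    have e2' : (1 - Int.fract x) * ((p i).2 : ℝ) + Int.fract x * ((p (i + 1)).2 : ℝ) =
        (1 - Int.fract y) * ((p j).2 : ℝ) + Int.fract y * ((p (j + 1)).2 : ℝ) := by
      apply mul_left_cancel₀ hδ.ne'
      linarith
    have hm := edge_meet hd1 hd2 (t := Int.fract x) (u := Int.fract y)
      (a := (p j).1 - (p i).1) (b := (p j).2 - (p i).2) (Int.fract_nonneg x) (Int.fract_lt_one x)
      (Int.fract_nonneg y) (Int.fract_lt_one y)
      (by simp only [Prod.fst_sub]; push_cast; linarith)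
      (by simp only [Prod.snd_sub]; push_cast; linarith)
    rcases hm with ⟨h1, h2, h3⟩ | ⟨h1, h2, h3⟩
    · have hpe : p i = p j := Prod.ext (by omega) (by omega)
      have hij : (i : ZMod n) = j := hp.2.1 hpe
      rw [ZMod.intCast_eq_intCast_iff_dvd_sub] at hij
      obtain ⟨k, hk⟩ := hij
      refine ⟨-k, ?_⟩
      have hk' : (j : ℝ) - i = n * k := by exact_mod_cast hk
      rw [hx, hy, h1]
      push_cast
      linarith
    · exfalso
      have hpe : p j = p ((i : ZMod n) + 1) := by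
        apply Prod.ext
        · simp only [Prod.fst_sub] at h2; omega
        · simp only [Prod.snd_sub] at h3; omega
      have hij := hp.2.1 hpe
      have hpe2 : p ((j : ZMod n) + 1) = p i := by
        have e3 := congrArg Prod.fst h1
        have e4 := congrArg Prod.snd h1
        simp only [Prod.fst_neg, Prod.snd_neg, Prod.fst_sub, Prod.snd_sub] at e3 e4
        have e5 := congrArg Prod.fst hpe
        have e6 := congrArg Prod.snd hpe
        exact Prod.ext (by omega) (by omega)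
      have hij2 := hp.2.1 hpe2
      rw [hij] at hij2
      have h4 : ((2 : ℕ) : ZMod n) = 0 := by
        have : (i : ZMod n) + 1 + 1 - i = 0 := by rw [hij2]; ring
        push_cast
        linear_combination this
      rw [ZMod.natCast_eq_zero_iff] at h4
      have := Nat.le_of_dvd (by norm_num) h4
      omega

theorem range_PF6 (hn : n ≠ 0) : range (PF6 p δ) =
    ⋃ i : ZMod n, segment ℝ ((δ : ℂ) * pt (p i)) ((δ : ℂ) * pt (p (i + 1))) := by
  have : NeZero n := ⟨hn⟩
  apply Subset.antisymm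
  · rintro _ ⟨x, rfl⟩
    refine mem_iUnion.2 ⟨(⌊x⌋ : ZMod n), ?_⟩
    have := pl_mem_segment (PV6 p δ) x
    simp only [PV6] at this
    push_cast at this
    exact this
  · intro z hz
    obtain ⟨i, hi⟩ := mem_iUnion.1 hz
    obtain ⟨x, -, hx⟩ := exists_pl_of_segment (PV6 p δ) (i.val : ℤ) (z := z) (by
      simp only [PV6]
      push_cast
      rw [ZMod.natCast_zmod_val]
      exact hi)
    exact ⟨x, hx⟩

theorem preimage_segment6 (hδ : 0 < δ) (v w : ℤ × ℤ) :
    N6 hδ ⁻¹' segment ℝ (rp v) (rp w) = segment ℝ ((δ : ℂ) * pt v) ((δ : ℂ) * pt w) := by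
  ext z
  rw [mem_preimage]
  constructor
  · rintro ⟨a, b, ha, hb, hab, h⟩
    refine ⟨a, b, ha, hb, hab, ?_⟩
    have h1 := congrArg Prod.fst h
    have h2 := congrArg Prod.snd h
    simp [rp] at h1 h2
    apply Complex.ext
    · simp
      field_simp at h1
      linarith
    · simp
      field_simp at h2
      linarith
  · rintro ⟨a, b, ha, hb, hab, rfl⟩
    refine ⟨a, b, ha, hb, hab, ?_⟩
    ext
    · simp [rp]
      field_simp
    · simp [rp]
      field_simp

theorem frontier_D6 (hδ : 0 < δ) (hp : IsPolygon p) (hS : Encloses p S) :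
    frontier (D6 δ S) = range (PF6 p δ) := by
  rw [D6_eq hδ, ← (N6 hδ).preimage_frontier, POLY.frontier_eq hp.tri (Encloses.tri hp hS), EE,
    preimage_iUnion, range_PF6 (by have := hp.1; omega)]
  exact iUnion_congr fun i => preimage_segment6 hδ _ _

/-- **Square lattice polygons enclose Jordan domains.** -/
theorem good_D6 (hδ : 0 < δ) (hp : IsPolygon p) (hS : Encloses p S) : Good (D6 δ S) where
  isOpen := isOpen_D6 δ S
  rdom := rdom_D6 hδ hp hS
  bdd := isBounded_D6 hδ S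
  lc := (jcurve_PF6 hδ hp).lc (frontier_D6 hδ hp hS)
  nocut := (jcurve_PF6 hδ hp).noCut (frontier_D6 hδ hp hS)

end Vale.Agent.P167.E6
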